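import Vale.Agent.P057.ThreeAP.Integers

/-!
An upper bound for progression-free sets of three terms with exponent one sixth, up to a
double-logarithmic factor.
-/

theorem Vale.Agent.Results.P057.ThreeTermSixth.result :
    ∃ c C : ℝ, 0 < c ∧ 0 < C ∧ ∀ N : ℕ, 16 ≤ N →
      (rothNumberNat N : ℝ) ≤
        C * N * Real.exp (-(c * (Real.log N / Real.log (Real.log N)) ^ ((1 : ℝ) / 6))) :=
  Vale.Agent.P057.ThreeAP.roth_bound
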